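import Mathlib
import Vale.Agent.P194.Central

/-!
Group algebras of central extensions of unique product groups are directly finite.
-/

namespace Vale.Agent.Results.P194.CentralByUniqueProduct

open Vale.Agent.P194.Central

theorem result (R : Type) [CommRing R] (G : Type) [Group G] (Z : Subgroup G) [Z.Normal]
    (hZ : Z ≤ Subgroup.center G)
    (hQ : UniqueProds (G ⧸ Z) ∨
      ∀ K : Subgroup (G ⧸ Z), K.FG → K ≠ ⊥ → ∃ ψ : K →* Multiplicative ℤ, ψ ≠ 1) :
    ∀ a b : MonoidAlgebra R G, a * b = 1 → b * a = 1 := by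
  intro a b hab
  haveI : UniqueProds (G ⧸ Z) := hQ.elim id fun h =>
    uniqueProds_of_indicable fun K hK hψ => by
      by_contra hne
      obtain ⟨ψ, hψ'⟩ := h K hK hne
      exact hψ' (hψ ψ)
  exact directlyFinite Z hZ a b hab

end Vale.Agent.Results.P194.CentralByUniqueProduct
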