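import Vale.Agent.P194.Sofic.Main

/-!
Stable finiteness of group algebras of residually (locally indicable by sofic) groups, and the
passage of stable finiteness to extensions with locally indicable or p-group kernels.
-/

namespace Vale.Agent.Results.P194.ResiduallyLIBySofic

open Vale.Agent.P194.Sofic Vale.Agent.P194.VirtLI

theorem result :
    (∀ (K : Type) [Field K] (G : Type) [Group G],
      (∀ g : G, g ≠ 1 → ∃ (Q : Type) (_ : Group Q) (π : G →* Q), π g ≠ 1 ∧ LIBySofic Q) →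
      StablyFinite K G) ∧
    (∀ (K : Type) [Field K] (p : ℕ) [Fact p.Prime] [CharP K p] (G : Type) [Group G],
      (∀ g : G, g ≠ 1 → ∃ M N : Subgroup G, M.Normal ∧ N.Normal ∧ M ≤ N ∧ g ∉ M ∧
        M.relIndex N ≠ 0 ∧ (∀ x ∈ N, ∃ k : ℕ, x ^ p ^ k ∈ M) ∧
        ∀ x, x ∉ N → ∃ (Q : Type) (_ : Group Q) (π : G →* Q),
          N ≤ π.ker ∧ π x ≠ 1 ∧ LIBySofic Q) →
      StablyFinite K G) ∧
    (∀ (K : Type) [Field K] (G Q : Type) [Group G] [Group Q] (π : G →* Q),
      LocallyIndicable π.ker → StablyFinite K Q → StablyFinite K G) ∧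
    (∀ (K : Type) [Field K] (p : ℕ) [Fact p.Prime] [CharP K p] (G Q : Type) [Group G] [Group Q]
      (π : G →* Q),
      (∀ T : Finset G, (∀ t ∈ T, π t = 1) →
        ∃ F : Subgroup G, F.Normal ∧ Finite F ∧ IsPGroup p F ∧ ∀ t ∈ T, t ∈ F) →
      StablyFinite K Q → StablyFinite K G) :=
  ⟨fun _ _ _ _ hres _ a b h => stablyFinite_of_residually hres a b h,
    fun _ _ p _ _ _ _ hres _ a b h => stablyFinite_of_residual_p p hres a b h,
    fun _ _ _ _ _ _ π hLI hQ n _ _ h => by
      have := isStablyFinite_of_li_kernel π hLI ⟨fun m => ⟨fun {a b} hab => hQ m a b hab⟩⟩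
      exact mul_eq_one_symm h,
    fun _ _ p _ _ _ _ _ _ π hker hQ n a b h =>
      Vale.Agent.P194.stablyFinite_of_kernel p π hker a b (hQ n) h⟩

end Vale.Agent.Results.P194.ResiduallyLIBySofic
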